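import Crest.Agent.R153.Path
import Crest.Agent.R153.Trial

/-! # Row 153: the chain trials `Tr` versus the trials of row 141 -/

set_option autoImplicit false
set_option linter.unusedVariables false
set_option linter.unusedSectionVars false

namespace Crest.Agent.R153

open Finset
open scoped BigOperators
open Crest.Agent.R141
open Crest.ProbabilityR.Diluted

/-- The trial `ζ` with exponents `e` projects, level by level, onto the chain `T`. -/
structure Rel {r : ℕ} {Ω : Type} [Fintype Ω] (ζ : Trial r Ω) (e : Expo r) (T : Tr)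
    (φ : ℕ → Ω → Fin T.b) : Prop where
  hr : T.r = r
  hm : ∀ k < r, e.m (r - k) = T.m k
  hν : ∀ g : Fin T.b → ℝ, ∑ ω, ζ.ν.w ω * g (φ 0 ω) = ∑ x : Fin T.b, T.π x * g x
  hA : ∀ k < r, ∀ z (g : Fin T.b → ℝ), ∑ ω, ζ.S.A (r - (k + 1)) z ω * g (φ (r - k) ω) =
    ∑ x : Fin T.b, T.A k (φ (r - (k + 1)) z) x * g x
  hs : ∀ z (g : Bool → ℝ), ∑ ω, ζ.S.A r z ω * g (ζ.s ω) = ∑ σ, T.q (φ r z) σ * g σ

theorem sum_reindex {L Y : Type} [Fintype L] [DecidableEq L] [Fintype Y] {n : ℕ} (ε : L ≃ Fin n)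
    (b : Fin n → Y → ℝ) (f : (Fin n → Y) → ℝ) :
    ∑ y : L → Y, (∏ l, b (ε l) (y l)) * f (fun i => y (ε.symm i)) =
      ∑ s : Fin n → Y, (∏ i, b i (s i)) * f s := by
  refine Fintype.sum_equiv (ε.arrowCongr (Equiv.refl Y)) _ _ fun y => ?_
  congr 1
  refine Fintype.prod_equiv ε _ _ fun l => ?_
  simp [Equiv.arrowCongr_apply]

section val

variable {r : ℕ} {Ω : Type} [Fintype Ω] {ζ : Trial r Ω} {e : Expo r} {T : Tr}
  {φ : ℕ → Ω → Fin T.b} {L : Type} [Fintype L] [DecidableEq L] {n : ℕ}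

theorem Rel.exp_lp (h : Rel ζ e T φ) (ε : L ≃ Fin n) (w : (L → Bool) → ℝ)
    (W : (Fin n → Fin T.b) → ℝ)
    (hW : ∀ s, W s = ∑ σ : L → Bool, (∏ l, T.q (s (ε l)) (σ l)) * Real.exp (w σ))
    {k : ℕ} (hk : k ≤ r) (z : L → Ω) :
    Real.exp ((Kern.pi fun _ : L => ζ.S.toKern).lp e (fun ω => w fun l => ζ.s (ω l)) (r - k) z) =
      pm (T.w n) T.m W k (fun i => φ (r - k) (z (ε.symm i))) := by
  induction k generalizing z with
  | zero =>
    have h1 := (Kern.pi fun _ : L => ζ.S.toKern).exp_mul_lp e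
      (fun ω => w fun l => ζ.s (ω l)) (le_refl r) z
    rw [e.top, one_mul, Kern.lp_top _ e _ le_rfl] at h1
    rw [Nat.sub_zero, h1]
    show _ = W _
    rw [hW]
    simp only [one_mul, Equiv.symm_apply_apply]
    exact sum_pi_push (fun l => ζ.S.A r (z l)) (fun l => T.q (φ r (z l))) ζ.s
      (fun l g => h.hs _ g) fun σ => Real.exp (w σ)
  | succ k ih =>
    have hk' : k < r := by omega
    have hj : r - (k + 1) ≤ r := by omega
    have e1 : r - (k + 1) + 1 = r - k := by omega
    rw [Kern.lp_succ _ e _ hj, e1, h.hm k hk', mul_comm,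
      ← Real.rpow_def_of_pos (Kern.ex_exp_pos _ _ _ _)]
    show _ = (∑ s', T.w n k _ s' * pm (T.w n) T.m W k s' ^ T.m k) ^ (T.m k)⁻¹
    congr 1
    have h2 : ∀ ω : L → Ω, Real.exp (T.m k * (Kern.pi fun _ : L => ζ.S.toKern).lp e
        (fun ω => w fun l => ζ.s (ω l)) (r - k) ω) =
        pm (T.w n) T.m W k (fun i => φ (r - k) (ω (ε.symm i))) ^ T.m k := by
      intro ω
      rw [mul_comm, Real.exp_mul, ih hk'.le]
    simp only [h2]
    refine (sum_pi_push (fun l => ζ.S.A (r - (k + 1)) (z l))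
      (fun l (x : Fin T.b) => T.A k (φ (r - (k + 1)) (z l)) x) (φ (r - k))
      (fun l g => h.hA k hk' _ g)
      fun y => pm (T.w n) T.m W k (fun i => y (ε.symm i)) ^ T.m k).trans ?_
    have := sum_reindex ε (fun i (x : Fin T.b) => T.A k (φ (r - (k + 1)) (z (ε.symm i))) x)
      fun s => pm (T.w n) T.m W k s ^ T.m k
    simp only [Equiv.symm_apply_apply] at this
    exact this

theorem Rel.val_eq (h : Rel ζ e T φ) (ε : L ≃ Fin n) (w : (L → Bool) → ℝ)
    (W : (Fin n → Fin T.b) → ℝ)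
    (hW : ∀ s, W s = ∑ σ : L → Bool, (∏ l, T.q (s (ε l)) (σ l)) * Real.exp (w σ)) :
    ζ.val e w = -T.nval n W := by
  have h1 : ∀ z : L → Ω,
      (Kern.pi fun _ : L => ζ.S.toKern).lp e (fun ω => w fun l => ζ.s (ω l)) 0 z =
        Real.log (pm (T.w n) T.m W r (fun i => φ 0 (z (ε.symm i)))) := by
    intro z
    have := h.exp_lp ε w W hW le_rfl z
    rw [Nat.sub_self] at this
    rw [← this, Real.log_exp]
  unfold Trial.val Tr.nval FinLaw.E
  simp only [h1, h.hr, mul_neg, Finset.sum_neg_distrib, neg_neg]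
  refine (sum_pi_push (fun _ => ζ.ν.w) (fun _ (x : Fin T.b) => T.π x) (φ 0)
    (fun l g => h.hν g) fun y => Real.log (pm (T.w n) T.m W r fun i => y (ε.symm i))).trans ?_
  exact sum_reindex ε (fun _ (x : Fin T.b) => T.π x) fun s => Real.log (pm (T.w n) T.m W r s)

end val

/-- Every trial of row 141 projects onto a valid chain. -/
theorem exists_tr {r : ℕ} {Ω : Type} [Fintype Ω] (ζ : Trial r Ω) (e : Expo r) :
    ∃ (T : Tr) (φ : ℕ → Ω → Fin T.b), T.Valid ∧ Rel ζ e T φ := by
  classical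
  let E : Ω ≃ Fin (Fintype.card Ω) := Fintype.equivFin Ω
  let ext : (Ω → ℝ) → ℕ → ℝ := fun f s => if h : s < Fintype.card Ω then f (E.symm ⟨s, h⟩) else 0
  have hext : ∀ f (x : Fin (Fintype.card Ω)), ext f x = f (E.symm x) := fun f x => dif_pos x.2
  have hexn : ∀ f s (hs : s < Fintype.card Ω), ext f s = f (E.symm ⟨s, hs⟩) :=
    fun f s hs => dif_pos hs
  have hext' : ∀ f ω, ext f (E ω) = f ω := fun f ω => by rw [hext, E.symm_apply_apply]
  have hsum : ∀ (f : Ω → ℝ) (g : Fin (Fintype.card Ω) → ℝ),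
      ∑ ω, f ω * g (E ω) = ∑ x : Fin (Fintype.card Ω), ext f x * g x := fun f g =>
    Fintype.sum_equiv E _ _ fun ω => by rw [hext']
  have hsum1 : ∀ f : Ω → ℝ, ∑ s ∈ range (Fintype.card Ω), ext f s = ∑ ω, f ω := by
    intro f
    have := hsum f fun _ => 1
    simp only [mul_one] at this
    rw [this, Fin.sum_univ_eq_sum_range (ext f)]
  let P : Ω → ℝ := fun z => ∑ ω, ζ.S.A r z ω * if ζ.s ω = true then 1 else 0
  let T : Tr := ⟨Fintype.card Ω, r, ext ζ.ν.w,
    fun k s s' => ext (fun z => ext (ζ.S.A (r - (k + 1)) z) s') s, ext P, fun k => e.m (r - k)⟩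
  have hP : ∀ z, 0 ≤ P z ∧ P z ≤ 1 := fun z =>
    ⟨sum_nonneg fun ω _ => mul_nonneg (ζ.S.nonneg _ _ _) (by split_ifs <;> norm_num), by
      rw [← ζ.S.sum_one r z]
      exact sum_le_sum fun ω _ => mul_le_of_le_one_right (ζ.S.nonneg _ _ _)
        (by split_ifs <;> norm_num)⟩
  refine ⟨T, fun _ => E, ⟨fun s hs => ?_, ?_, fun k hk s hs s' hs' => ?_, fun k hk s hs => ?_,
    fun s hs => ?_, fun s hs => ?_, fun k hk => ?_, fun k hk => ?_, fun k hk => ?_⟩,
    ⟨rfl, fun k _ => rfl, fun g => hsum _ g, fun k hk z g => ?_, fun z g => ?_⟩⟩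
  · show 0 ≤ ext _ s
    rw [hexn _ s hs]; exact ζ.ν.nonneg _
  · exact (hsum1 _).trans ζ.ν.sum_one
  · show 0 ≤ ext (fun z => ext (ζ.S.A (r - (k + 1)) z) s') s
    simp only [hexn _ s hs, hexn _ s' hs']; exact ζ.S.nonneg _ _ _
  · show ∑ s' ∈ range (Fintype.card Ω), ext (fun z => ext (ζ.S.A (r - (k + 1)) z) s') s = 1
    simp only [hexn _ s hs]
    exact (hsum1 _).trans (ζ.S.sum_one _ _)
  · show 0 ≤ ext P s
    rw [hexn P s hs]; exact (hP _).1
  · show ext P s ≤ 1
    rw [hexn P s hs]; exact (hP _).2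
  · have hk' : k < r := hk
    have := e.pos (show r - k - 1 ≤ r by omega)
    rwa [show r - k - 1 + 1 = r - k by omega] at this
  · have hk' : k < r := hk
    show e.m (r - k) < 1
    rw [← e.top]
    exact (e.lt (r - k) (by omega)).trans_le (e.mono (by omega) le_rfl)
  · have hk' : k + 1 < r := hk
    have := e.lt (r - (k + 1)) (by omega)
    rwa [show r - (k + 1) + 1 = r - k by omega] at this
  · show _ = ∑ x : Fin (Fintype.card Ω),
      ext (fun z => ext (ζ.S.A (r - (k + 1)) z) x) (E z) * g x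
    simp only [hext']
    exact hsum _ g
  · have h1 : T.p (E z) = P z := hext' P z
    have h2 := ζ.S.sum_one r z
    rw [Fintype.sum_bool]
    simp only [Tr.q, if_true, Bool.false_eq_true, if_false, h1]
    have h3 : ∀ ω, ζ.S.A r z ω * g (ζ.s ω) = ζ.S.A r z ω * g false +
        (ζ.S.A r z ω * if ζ.s ω = true then 1 else 0) * (g true - g false) := by
      intro ω; cases ζ.s ω <;> simp; ring
    simp only [h3, sum_add_distrib, ← Finset.sum_mul, h2]
    ring

/-- Every valid chain is the projection of a trial of row 141. -/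
theorem exists_trial {T : Tr} (h : T.Valid) :
    ∃ (e : Expo T.r) (Ω : Type) (_ : Fintype Ω) (ζ : Trial T.r Ω) (φ : ℕ → Ω → Fin T.b),
      Rel ζ e T φ := by
  classical
  let e : Expo T.r :=
    { m := fun j => if j = 0 then 0 else if j ≤ T.r then T.m (T.r - j) else 1
      zero := by simp
      top := by simp
      lt := fun j hj => by
        by_cases h0 : j = 0
        · subst h0
          by_cases h1 : 1 ≤ T.r
          · simpa [h1] using h.m0 (T.r - 1) (by omega)
          · simp [h1]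
        · by_cases h1 : j + 1 ≤ T.r
          · have := h.manti (T.r - (j + 1)) (by omega)
            rw [show T.r - (j + 1) + 1 = T.r - j by omega] at this
            simpa [h0, h1, hj] using this
          · simpa [h0, h1, hj] using h.m1 (T.r - j) (by omega) }
  have hq : ∀ x : Fin T.b, ∑ σ, T.q x σ = 1 := fun x => by simp [Tr.q]
  have hA1 : ∀ k < T.r, ∀ x : Fin T.b, ∑ y : Fin T.b, T.A k x y = 1 := fun k hk x => by
    rw [Tr.Valid.sum_fin (T.A k x)]; exact h.A1 k hk x x.2
  let K : Kern (Fin T.b × Bool) :=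
    { A := fun j z ω => if j < T.r then T.A (T.r - (j + 1)) z.1 ω.1 * T.q ω.1 ω.2
        else (if ω.1 = z.1 then 1 else 0) * T.q ω.1 ω.2
      nonneg := fun j z ω => by
        split_ifs with h1
        · exact mul_nonneg (h.A0 _ (by omega) _ z.1.2 _ ω.1.2) (h.q_mem _ _).1
        · simpa using (h.q_mem _ _).1
        · simp
      sum_one := fun j z => by
        rw [Fintype.sum_prod_type]
        split_ifs with h1
        · simp only [← Finset.mul_sum, hq, mul_one]; exact hA1 _ (by omega) _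
        · simp [Tr.q, Finset.sum_add_distrib] }
  let μ : FinLaw (Fin T.b) :=
    ⟨fun x => T.π x, fun x => h.π0 x x.2, by rw [Tr.Valid.sum_fin T.π]; exact h.π1⟩
  let ζ : Trial T.r (Fin (T.r + 2) → Fin T.b × Bool) :=
    ⟨pathFKS K T.r, μ.map fun x _ => (x, true), fun ω => (ω (ix T.r (T.r + 1))).2⟩
  refine ⟨e, _, inferInstance, ζ, fun j ω => (ω (ix T.r j)).1, rfl, fun k hk => ?_, fun g => ?_,
    fun k hk z g => ?_, fun z g => ?_⟩
  · have h0 : T.r - k ≠ 0 := by omega
    simp only [e, h0, if_false, Nat.sub_le, if_true]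
    congr 1; omega
  · exact μ.map_E (fun x _ => (x, true)) fun ω => g (ω (ix T.r 0)).1
  · have := path_ex K T.r (j := T.r - (k + 1)) (by omega) (fun x => g x.1) z
    rw [show T.r - (k + 1) + 1 = T.r - k by omega] at this
    refine this.trans ?_
    rw [Fintype.sum_prod_type]
    refine sum_congr rfl fun x _ => ?_
    have h1 : T.r - (k + 1) < T.r := by omega
    have h2 : T.r - (T.r - (k + 1) + 1) = k := by omega
    simp only [K, h1, if_true, h2]
    rw [← Finset.sum_mul, ← Finset.mul_sum, hq, mul_one]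
  · refine (path_ex K T.r le_rfl (fun x => g x.2) z).trans ?_
    rw [Fintype.sum_prod_type]
    simp only [K, lt_irrefl, if_false, mul_assoc]
    simp

end Crest.Agent.R153
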