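import Crest.Agent.R153.Sat3
import Crest.Agent.R141.FinMP

/-! # Row 153: the variational formula for random 3-SAT (imported from row 141) -/

set_option autoImplicit false
set_option linter.unusedVariables false
set_option linter.unusedSectionVars false

namespace Crest.Agent.R153

open Finset
open scoped BigOperators

open Filter Topology

theorem mp_upper {T : Tr} (h : T.Valid) {a κ : ℝ} (ha : 0 < a) (hκ0 : 0 ≤ κ) (hκ1 : κ < 1)
    {ε : ℝ} (hε : 0 < ε) : ∀ᶠ N : ℕ in atTop, press a κ N ≤ T.P a κ + ε := by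
  obtain ⟨e, Ω, _, ζ, φ, hr⟩ := exists_trial h
  have := R141.upper_fin' (by norm_num) (sat3 κ hκ0 hκ1) ha e ζ hε
  filter_upwards [this] with N hN
  rwa [pressure_eq hκ0 hκ1, Rel.P_eq hκ0 hκ1 hr] at hN

theorem mp_lower {a κ : ℝ} (ha : 0 < a) (hκ0 : 0 ≤ κ) (hκ1 : κ < 1) {ε : ℝ} (hε : 0 < ε) :
    ∃ T : Tr, T.Valid ∧ ∃ᶠ N : ℕ in atTop, T.P a κ ≤ press a κ N + ε := by
  obtain ⟨r, e, Ω, _, ζ, hζ⟩ := R141.lower_fin' (by norm_num) (sat3 κ hκ0 hκ1) ha hε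
  obtain ⟨T, φ, hT, hr⟩ := exists_tr ζ e
  refine ⟨T, hT, Filter.Eventually.frequently ?_⟩
  filter_upwards [hζ] with N hN
  rwa [pressure_eq hκ0 hκ1, Rel.P_eq hκ0 hκ1 hr] at hN

end Crest.Agent.R153
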