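import Crest.Agent.R153.LowCode
import Crest.Agent.R153.UpCode
import Crest.Agent.R153.Dense
import Crest.Agent.R153.MP

/-! # Row 153: the threshold is computable (statement S0218) -/

set_option autoImplicit false
set_option linter.unusedVariables false
set_option linter.unusedSectionVars false

namespace Crest.Agent.R153

open Finset
open scoped BigOperators

open Filter Topology
open Crest.Agent.Lib.Comp Crest.ProbabilityR.RandomSAT

/-- Search (`Computable.find`) for the first code `z` of a triple `(j, v, w)` with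
`Lo ((j-1)/2^r) v` and `Up ((j+1)/2^r) w` (use `Encodable.decode`/`Option.getD` or
`Primrec.option_getD`); it exists for `j = ⌊α 2^r + 1/2⌋₊`. -/
theorem computable_of_certs {V W : Type*} [Primcodable V] [Primcodable W] {α : ℝ} (h0 : 0 ≤ α)
    {Lo : ℚ → V → Prop} {Up : ℚ → W → Prop} (hLo : PrimrecPred fun x : ℚ × V => Lo x.1 x.2)
    (hUp : PrimrecPred fun x : ℚ × W => Up x.1 x.2) (hLs : ∀ q v, Lo q v → (q : ℝ) ≤ α)
    (hLc : ∀ q : ℚ, (q : ℝ) < α → ∃ v, Lo q v) (hUs : ∀ q w, Up q w → α ≤ q)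
    (hUc : ∀ q : ℚ, α < q → ∃ w, Up q w) :
    ∃ f : ℕ → ℕ, Computable f ∧ ∀ r : ℕ, |(f r : ℝ) / 2 ^ r - α| ≤ 1 / 2 ^ r := by
  classical
  have hex : ∀ r : ℕ, ∃ t : ℕ × V × W,
      Lo (((t.1 : ℚ) - 1) / 2 ^ r) t.2.1 ∧ Up (((t.1 : ℚ) + 1) / 2 ^ r) t.2.2 := fun r => by
    have h2 : (0 : ℝ) < 2 ^ r := by positivity
    have a1 := Nat.floor_le (show 0 ≤ α * 2 ^ r + 1 / 2 by positivity)
    have a2 := Nat.lt_floor_add_one (α * 2 ^ r + 1 / 2)
    obtain ⟨v, hv⟩ := hLc (((⌊α * 2 ^ r + 1 / 2⌋₊ : ℚ) - 1) / 2 ^ r) (by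
      push_cast
      rw [div_lt_iff₀ h2]
      linarith)
    obtain ⟨w, hw⟩ := hUc (((⌊α * 2 ^ r + 1 / 2⌋₊ : ℚ) + 1) / 2 ^ r) (by
      push_cast
      rw [lt_div_iff₀ h2]
      linarith)
    exact ⟨(_, v, w), hv, hw⟩
  obtain ⟨t₀, -⟩ := hex 0
  let dec : ℕ → ℕ × V × W := fun z => (Encodable.decode z).getD t₀
  have hdec : Primrec dec := Primrec.option_getD.comp Primrec.decode (Primrec.const t₀)
  let P : ℕ → ℕ → Prop := fun r z => Lo ((((dec z).1 : ℚ) - 1) / 2 ^ r) (dec z).2.1 ∧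
    Up ((((dec z).1 : ℚ) + 1) / 2 ^ r) (dec z).2.2
  have hP : PrimrecPred fun p : ℕ × ℕ => P p.1 p.2 := by
    have d : Primrec fun p : ℕ × ℕ => dec p.2 := hdec.comp Primrec.snd
    have j : Primrec fun p : ℕ × ℕ => ((dec p.2).1 : ℚ) := rat_natCast.comp (Primrec.fst.comp d)
    have e : Primrec fun p : ℕ × ℕ => (2 : ℚ) ^ p.1 := rat_pow.comp (Primrec.const 2) Primrec.fst
    exact (hLo.comp ((rat_div.comp (rat_sub.comp j (Primrec.const 1)) e).pair
      (Primrec.fst.comp (Primrec.snd.comp d)))).and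
      (hUp.comp ((rat_div.comp (rat_add.comp j (Primrec.const 1)) e).pair
      (Primrec.snd.comp (Primrec.snd.comp d))))
  have hPex : ∀ r, ∃ z, P r z := fun r => by
    obtain ⟨t, ht⟩ := hex r
    refine ⟨Encodable.encode t, ?_⟩
    simpa only [P, dec, Encodable.encodek, Option.getD_some] using ht
  refine ⟨fun r => (dec (Nat.find (hPex r))).1,
    (Primrec.fst.comp hdec).to_comp.comp (Computable.find hP.computablePred hPex), fun r => ?_⟩
  obtain ⟨h1, h2⟩ := Nat.find_spec (hPex r)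
  have a1 := hLs _ _ h1
  have a2 := hUs _ _ h2
  push_cast at a1 a2
  rw [sub_div] at a1
  rw [add_div] at a2
  rw [abs_le]
  constructor <;> linarith

/-- If `a < α`: `upCheck_sound`, `mp_upper` with `ε = -P/3` and `press_ge` contradict. -/
theorem up_sound {α : ℝ} (hα : IsSharpThreshold (satProb 3) α) {a : ℚ}
    {w : TC × ℚ × ℕ × ℕ × ℕ} (h : upCheck a w) : α ≤ a := by
  by_contra hlt
  obtain ⟨hv, hP⟩ := upCheck_sound h
  have k0 : (0 : ℝ) ≤ (w.2.1 : ℚ) := by exact_mod_cast h.2.1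
  have k1 : ((w.2.1 : ℚ) : ℝ) < 1 := by exact_mod_cast h.2.2.1
  have a0 : (0 : ℝ) < a := by exact_mod_cast h.2.2.2.1
  have hε : 0 < -w.1.toTr.P a w.2.1 / 3 := by linarith
  obtain ⟨N, h1, h2⟩ :=
    ((mp_upper hv a0 k0 k1 hε).and (press_ge hα a0 (not_le.1 hlt) k0 k1 hε)).exists
  linarith

/-- `press_le` with `K = 3`, `mp_lower` with `ε = 1`, `exists_trunc`, `exists_code`,
`upCheck_complete`. -/
theorem up_complete {α : ℝ} (hα : IsSharpThreshold (satProb 3) α) {a : ℚ} (ha : α < a) :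
    ∃ w, upCheck a w := by
  obtain ⟨κ, k0, k1, hκ⟩ := press_le hα ha 3
  have a0 : (0 : ℝ) < a := (alpha_nonneg hα).trans_lt ha
  have k0' : (0 : ℝ) ≤ κ := by exact_mod_cast k0
  have k1' : (κ : ℝ) < 1 := by exact_mod_cast k1
  obtain ⟨T, hT, hfr⟩ := mp_lower a0 k0' k1' one_pos
  obtain ⟨N, h1, h2⟩ := (hfr.and_eventually hκ).exists
  obtain ⟨D, hD⟩ := exists_trunc hT a0 k0' k1' (by linarith)
  obtain ⟨T', hT', hD'⟩ := exists_code hT k0' k1' D hD
  obtain ⟨n, S, h⟩ := upCheck_complete hT' (by exact_mod_cast a0) k0 k1 D hD'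
  exact ⟨_, h⟩

theorem threshold_computable (α : ℝ) (hα : IsSharpThreshold (satProb 3) α) :
    ∃ f : ℕ → ℕ, Computable f ∧ ∀ r : ℕ, |(f r : ℝ) / 2 ^ r - α| ≤ 1 / 2 ^ r := by
  obtain ⟨Λ, C₀, h1, h2⟩ := low_cert hα
  exact computable_of_certs (alpha_nonneg hα) (primrec_lowCheck Λ C₀) primrec_upCheck h1 h2
    (fun q w h => up_sound hα h) fun q h => up_complete hα h

end Crest.Agent.R153
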