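import Crest.Agent.R141.Model

/-! # Row 153: push-forward of product laws; the path space of a chain is a filtered system -/

set_option autoImplicit false
set_option linter.unusedVariables false
set_option linter.unusedSectionVars false

namespace Crest.Agent.R153

open Finset
open scoped BigOperators
open Crest.Agent.R141

/-- The image of a product weight under coordinatewise maps is the product of the images. -/
theorem sum_pi_push {L Ω Y : Type} [Fintype L] [DecidableEq L] [Fintype Ω] [Fintype Y]
    (a : L → Ω → ℝ) (b : L → Y → ℝ) (φ : Ω → Y)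
    (h : ∀ l (g : Y → ℝ), ∑ ω, a l ω * g (φ ω) = ∑ y, b l y * g y) (f : (L → Y) → ℝ) :
    ∑ ω : L → Ω, (∏ l, a l (ω l)) * f (fun l => φ (ω l)) =
      ∑ y : L → Y, (∏ l, b l (y l)) * f y := by
  classical
  have hb : ∀ l y, b l y = ∑ ω, a l ω * if φ ω = y then 1 else 0 := by
    intro l y
    rw [h l fun y' => if y' = y then 1 else 0]
    simp
  have h1 : ∀ y : L → Y, ∏ l, b l (y l) =
      ∑ ω : L → Ω, (∏ l, a l (ω l)) * if (fun l => φ (ω l)) = y then 1 else 0 := by
    intro y
    simp only [hb]
    rw [Finset.prod_univ_sum, Fintype.piFinset_univ]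
    refine sum_congr rfl fun ω _ => ?_
    rw [prod_mul_distrib, Finset.prod_ite_zero]
    simp [funext_iff]
  simp only [h1, Finset.sum_mul]
  rw [Finset.sum_comm]
  refine sum_congr rfl fun ω _ => ?_
  simp

section Path

variable {X : Type} [Fintype X] [DecidableEq X] (K : Kern X) (r : ℕ)

/-- The coordinate of level `i`. -/
def ix (r i : ℕ) : Fin (r + 2) := ⟨min i (r + 1), by omega⟩

/-- Path kernels, by recursion on the number of remaining steps. -/
noncomputable def pathB : ℕ → (Fin (r + 2) → X) → (Fin (r + 2) → X) → ℝ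
  | 0, z, ω => if ω = z then 1 else 0
  | d + 1, z, ω => ∑ x, K.A (r - d) (z (ix r (r - d))) x *
      pathB d (Function.update z (ix r (r - d + 1)) x) ω

noncomputable def pathA (j : ℕ) : (Fin (r + 2) → X) → (Fin (r + 2) → X) → ℝ :=
  pathB K r (r + 1 - j)

theorem pathA_top {j : ℕ} (hj : r + 1 ≤ j) (z ω : Fin (r + 2) → X) :
    pathA K r j z ω = if ω = z then 1 else 0 := by
  unfold pathA
  rw [Nat.sub_eq_zero_of_le hj]; rfl

theorem pathA_succ {j : ℕ} (hj : j ≤ r) (z ω : Fin (r + 2) → X) :
    pathA K r j z ω = ∑ x, K.A j (z (ix r j)) x *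
      pathA K r (j + 1) (Function.update z (ix r (j + 1)) x) ω := by
  unfold pathA
  have h1 : r + 1 - j = (r - j) + 1 := by omega
  have h2 : r + 1 - (j + 1) = r - j := by omega
  have h3 : r - (r - j) = j := by omega
  rw [h1, h2, pathB, h3]

/-- Agreement up to level `j`. -/
def pathRel (j : ℕ) : Setoid (Fin (r + 2) → X) :=
  ⟨fun z z' => ∀ i : Fin (r + 2), i.val ≤ j → z i = z' i,
    ⟨fun _ _ _ => rfl, fun h i hi => (h i hi).symm, fun h h' i hi => (h i hi).trans (h' i hi)⟩⟩

theorem pathA_nonneg (j : ℕ) (z ω : Fin (r + 2) → X) : 0 ≤ pathA K r j z ω := by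
  induction j using down_ind (r := r) generalizing z with
  | top j hj => rw [pathA_top K r hj]; split_ifs <;> norm_num
  | step j hj ih =>
    rw [pathA_succ K r hj]
    exact sum_nonneg fun x _ => mul_nonneg (K.nonneg _ _ _) (ih _)

theorem pathA_sum (j : ℕ) (z : Fin (r + 2) → X) : ∑ ω, pathA K r j z ω = 1 := by
  induction j using down_ind (r := r) generalizing z with
  | top j hj => simp [pathA_top K r hj]
  | step j hj ih =>
    simp only [pathA_succ K r hj]
    rw [Finset.sum_comm]
    simp only [← Finset.mul_sum, ih, mul_one, K.sum_one]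

theorem pathA_supp (j : ℕ) (z ω : Fin (r + 2) → X) (h : pathA K r j z ω ≠ 0) :
    pathRel r j z ω := by
  induction j using down_ind (r := r) generalizing z with
  | top j hj =>
    rw [pathA_top K r hj] at h
    have : ω = z := by by_contra h'; exact h (if_neg h')
    intro i _; rw [this]
  | step j hj ih =>
    rw [pathA_succ K r hj] at h
    obtain ⟨x, _, hx⟩ := Finset.exists_ne_zero_of_sum_ne_zero h
    intro i hi
    have := ih _ (right_ne_zero_of_mul hx) i (by omega)
    rwa [Function.update_of_ne] at this
    intro e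
    have := congrArg Fin.val e
    simp only [ix] at this
    omega

theorem pathA_inv (j : ℕ) (z z' : Fin (r + 2) → X) (h : pathRel r j z z') :
    pathA K r j z = pathA K r j z' := by
  induction j using down_ind (r := r) generalizing z z' with
  | top j hj =>
    have : z = z' := funext fun i => h i (by have := i.2; omega)
    rw [this]
  | step j hj ih =>
    funext ω
    rw [pathA_succ K r hj, pathA_succ K r hj, h (ix r j) (by simp [ix])]
    refine sum_congr rfl fun x _ => ?_
    rw [ih (Function.update z (ix r (j + 1)) x) (Function.update z' (ix r (j + 1)) x)]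
    intro i hi
    by_cases e : i = ix r (j + 1)
    · subst e; simp
    · rw [Function.update_of_ne e, Function.update_of_ne e]
      refine h i ?_
      have : i.val ≠ j + 1 := fun e' => e (Fin.ext (by simp only [ix]; omega))
      omega

theorem pathA_idem (j : ℕ) (z ω' : Fin (r + 2) → X) :
    ∑ ω, pathA K r j z ω * pathA K r j ω ω' = pathA K r j z ω' := by
  have : ∀ ω, pathA K r j z ω * pathA K r j ω ω' = pathA K r j z ω * pathA K r j z ω' := by
    intro ω
    by_cases h : pathA K r j z ω = 0
    · simp [h]
    · rw [pathA_inv K r j z ω (pathA_supp K r j z ω h)]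
  simp only [this, ← Finset.sum_mul, pathA_sum, one_mul]

/-- The filtered kernel system on the paths of the chain `K`. -/
noncomputable def pathFKS : FKS (Fin (r + 2) → X) r where
  A := pathA K r
  nonneg := pathA_nonneg K r
  sum_one := pathA_sum K r
  rel := pathRel r
  supp := pathA_supp K r
  inv := pathA_inv K r
  refine j z z' h i hi := h i (by omega)
  tower j hj z ω' := by
    simp only [pathA_succ K r hj.le z, Finset.sum_mul]
    rw [Finset.sum_comm]
    refine sum_congr rfl fun x _ => ?_
    simp only [mul_assoc, ← Finset.mul_sum, pathA_idem]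

theorem path_ex {j : ℕ} (hj : j ≤ r) (g : X → ℝ) (z : Fin (r + 2) → X) :
    ∑ ω, (pathFKS K r).A j z ω * g (ω (ix r (j + 1))) = ∑ x, K.A j (z (ix r j)) x * g x := by
  show ∑ ω, pathA K r j z ω * g (ω (ix r (j + 1))) = _
  simp only [pathA_succ K r hj z, Finset.sum_mul]
  rw [Finset.sum_comm]
  refine sum_congr rfl fun x _ => ?_
  simp only [mul_assoc, ← Finset.mul_sum]
  congr 1
  have : ∀ ω, pathA K r (j + 1) (Function.update z (ix r (j + 1)) x) ω * g (ω (ix r (j + 1))) =
      pathA K r (j + 1) (Function.update z (ix r (j + 1)) x) ω * g x := by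
    intro ω
    by_cases h : pathA K r (j + 1) (Function.update z (ix r (j + 1)) x) ω = 0
    · simp [h]
    · rw [← pathA_supp K r _ _ _ h (ix r (j + 1)) (by simp [ix]), Function.update_self]
  simp only [this, ← Finset.sum_mul, pathA_sum, one_mul]

end Path

end Crest.Agent.R153
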