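import Crest.Agent.R153.Bridge

/-! # Row 153: random 3-SAT as a factorized model of row 141 -/

set_option autoImplicit false
set_option linter.unusedVariables false
set_option linter.unusedSectionVars false

namespace Crest.Agent.R153

open Finset
open scoped BigOperators
open Crest.Agent.R141
open Crest.ProbabilityR.Diluted

/-- Random 3-SAT: a violated clause has weight `1 - κ`. -/
noncomputable def sat3 (κ : ℝ) (h0 : 0 ≤ κ) (h1 : κ < 1) : Model 3 Unit Bool Unit where
  πb := FinLaw.unif Unit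
  πf := FinLaw.unif Bool
  πh := FinLaw.unif Unit
  b _ := -κ
  f y s := if s = y then 1 else 0
  h _ := 0
  ρ := κ
  ρ_lt := h1
  bound x y s := by
    rw [abs_mul, abs_neg, abs_of_nonneg h0]
    refine mul_le_of_le_one_right h0 ?_
    rw [abs_of_nonneg (prod_nonneg fun l _ => by split_ifs <;> norm_num)]
    exact prod_le_one (fun l _ => by split_ifs <;> norm_num) fun l _ => by split_ifs <;> norm_num
  mom n _ := by rw [FinLaw.E_const, neg_neg]; positivity
  sign := Or.inr fun y s => by split_ifs <;> norm_num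

theorem E_eq_expect {S : Type} [Fintype S] (μ : FinLaw S) {c : ℝ} (h : ∀ s, μ.w s = c)
    (f : S → ℝ) : μ.E f = 𝔼 s, f s := by
  have h1 := μ.sum_one
  simp only [h, sum_const, card_univ, nsmul_eq_mul] at h1
  have h2 : (Fintype.card S : ℝ) ≠ 0 := left_ne_zero_of_mul_eq_one h1
  rw [Fintype.expect_eq_sum_div_card, FinLaw.E]
  simp only [h, ← Finset.mul_sum]
  rw [eq_div_iff h2, mul_comm c, mul_assoc, mul_comm c, h1, mul_one]

variable {κ : ℝ} (h0 : 0 ≤ κ) (h1 : κ < 1)

theorem sat3_w (d : Unit × (Fin 3 → Bool)) : (sat3 κ h0 h1).dis.πd.w d = 1 / 8 := by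
  simp [sat3, Model.dis, FinLaw.prod, FinLaw.pi, FinLaw.unif]; norm_num

theorem sat3_exp (d : Unit × (Fin 3 → Bool)) (s : Fin 3 → Bool) :
    Real.exp ((sat3 κ h0 h1).dis.θ d s) = 1 - κ * ∏ l, if s l = d.2 l then 1 else 0 := by
  have hb := (sat3 κ h0 h1).bound d.1 d.2 s
  have := (abs_le.1 hb).1
  show Real.exp (Real.log (1 + (sat3 κ h0 h1).b d.1 * ∏ l, (sat3 κ h0 h1).f (d.2 l) (s l))) = _
  rw [Real.exp_log (by change -κ ≤ _ at this; linarith)]
  simp only [sat3]; ring

theorem sat3_E (F : Unit × (Fin 3 → Bool) → ℝ) :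
    (sat3 κ h0 h1).dis.πd.E F = 𝔼 J : Fin 3 → Bool, F ((), J) := by
  rw [E_eq_expect _ (sat3_w h0 h1)]
  exact (Fintype.expect_equiv (Equiv.uniqueProd (Fin 3 → Bool) Unit).symm _ _ fun J => rfl).symm

theorem sat3_piE (k : ℕ) (F : (Fin k → Unit × (Fin 3 → Bool)) → ℝ) :
    (FinLaw.pi fun _ : Fin k => (sat3 κ h0 h1).dis.πd).E F =
      𝔼 J : Fin k → Fin 3 → Bool, F fun j => ((), J j) := by
  rw [E_eq_expect _ (c := (1 / 8) ^ k) fun ds => by simp [FinLaw.pi, sat3_w]]
  exact (Fintype.expect_equiv ((Equiv.refl (Fin k)).arrowCongr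
    (Equiv.uniqueProd (Fin 3 → Bool) Unit).symm) _ _ fun J => rfl).symm

theorem sum_q_ind (T : Tr) {L : Type} [Fintype L] [DecidableEq L] (x : L → ℕ) (J : L → Bool)
    (c : ℝ) : ∑ σ : L → Bool, (∏ l, T.q (x l) (σ l)) * (1 - c * ∏ l, if σ l = J l then 1 else 0) =
      1 - c * ∏ l, T.q (x l) (J l) := by
  have a1 : ∑ σ : L → Bool, ∏ l, T.q (x l) (σ l) = 1 := by
    rw [← Fintype.piFinset_univ, ← Finset.prod_univ_sum (f := fun l σ => T.q (x l) σ)]
    exact prod_eq_one fun l _ => by simp [Tr.q]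
  have a2 : ∑ σ : L → Bool, (∏ l, T.q (x l) (σ l)) * ∏ l, (if σ l = J l then (1 : ℝ) else 0) =
      ∏ l, T.q (x l) (J l) := by
    simp only [← prod_mul_distrib]
    rw [← Fintype.piFinset_univ,
      ← Finset.prod_univ_sum (f := fun l σ => T.q (x l) σ * if σ = J l then (1 : ℝ) else 0)]
    exact prod_congr rfl fun l _ => by simp
  simp only [mul_sub, mul_one, sum_sub_distrib, a1, mul_left_comm _ c, ← Finset.mul_sum, a2]

theorem edgeW_eq (T : Tr) (J : Fin 3 → Bool) (s : Fin 3 → Fin T.b) :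
    T.edgeW κ J s = ∑ σ : Fin 3 → Bool, (∏ l, T.q (s (Equiv.refl _ l)) (σ l)) *
      Real.exp ((sat3 κ h0 h1).dis.θ ((), J) σ) := by
  simp only [sat3_exp, Equiv.refl_apply]
  rw [sum_q_ind T fun l => s l]
  rfl

theorem siteW_eq (T : Tr) (k : ℕ) (J : Fin (k * 3) → Bool) (s : Fin (k * 2) → Fin T.b) :
    T.siteW κ k J s = ∑ σ : Fin k × Fin 2 → Bool,
      (∏ l, T.q (s (finProdFinEquiv l)) (σ l)) * Real.exp (R141.siteW (p := 3) 0
        (fun j => (sat3 κ h0 h1).dis.θ ((), fun l => J (finProdFinEquiv (j, l)))) σ) := by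
  have hexp : ∀ σ : Fin k × Fin 2 → Bool, Real.exp (R141.siteW (p := 3) 0
      (fun j => (sat3 κ h0 h1).dis.θ ((), fun l => J (finProdFinEquiv (j, l)))) σ) =
      (1 / 2) * ∑ ε : Bool, ∏ j : Fin k,
        (1 - κ * (if ε = J (finProdFinEquiv (j, 2)) then 1 else 0) *
          ∏ l : Fin 2, if σ (j, l) = J (finProdFinEquiv (j, l.castSucc)) then 1 else 0) := by
    intro σ
    unfold R141.siteW
    rw [Real.exp_log (mul_pos (by norm_num) (sum_pos (fun _ _ => Real.exp_pos _) univ_nonempty))]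
    congr 1
    refine sum_congr rfl fun ε _ => ?_
    rw [zero_mul, zero_add, Real.exp_sum]
    refine prod_congr rfl fun j _ => ?_
    rw [sat3_exp, Fin.prod_univ_three, Fin.prod_univ_two]
    simp only [lastLeg]
    norm_num
    split_ifs <;> simp_all
  simp only [hexp]
  unfold Tr.siteW
  simp only [mul_left_comm _ (1 / 2 : ℝ), ← Finset.mul_sum]
  congr 1
  simp only [Finset.mul_sum]
  rw [Finset.sum_comm]
  refine sum_congr rfl fun ε _ => ?_
  rw [← (Equiv.curry (Fin k) (Fin 2) Bool).symm.sum_comp]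
  simp only [Equiv.curry_symm_apply, Function.uncurry_apply_pair, Fintype.prod_prod_type,
    ← prod_mul_distrib]
  rw [← Fintype.piFinset_univ, ← Finset.prod_univ_sum (f := fun (j : Fin k) (τ : Fin 2 → Bool) =>
    (∏ l, T.q (s (finProdFinEquiv (j, l))) (τ l)) *
      (1 - κ * (if ε = J (finProdFinEquiv (j, 2)) then 1 else 0) *
          ∏ l : Fin 2, if τ l = J (finProdFinEquiv (j, l.castSucc)) then 1 else 0))]
  refine prod_congr rfl fun j _ => ?_
  rw [sum_q_ind T fun l => s (finProdFinEquiv (j, l)), Fin.prod_univ_two]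
  rfl

/-- The two cavity functionals agree. -/
theorem Rel.P_eq {r : ℕ} {Ω : Type} [Fintype Ω] {ζ : Trial r Ω} {e : Expo r} {T : Tr}
    {φ : ℕ → Ω → Fin T.b} (h : Rel ζ e T φ) (a : ℝ) :
    (sat3 κ h0 h1).dis.P a e ζ = T.P a κ := by
  have he : (sat3 κ h0 h1).dis.πd.E (fun d => ζ.val e ((sat3 κ h0 h1).dis.θ d)) = -T.edge κ := by
    rw [sat3_E, Tr.edge, ← expect_neg_distrib]
    exact expect_congr rfl fun J _ => h.val_eq (Equiv.refl _) _ _ (edgeW_eq h0 h1 T J)
  have hs : ∀ k : ℕ, ((FinLaw.pi fun _ : Fin k => (sat3 κ h0 h1).dis.πd).E fun ds =>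
      (sat3 κ h0 h1).dis.πh.E fun x => ζ.val e (R141.siteW ((sat3 κ h0 h1).dis.h x)
        fun j => (sat3 κ h0 h1).dis.θ (ds j))) = -T.site κ k := by
    intro k
    rw [sat3_piE, Tr.site, ← expect_neg_distrib]
    symm
    refine Fintype.expect_equiv ((finProdFinEquiv.symm.arrowCongr (Equiv.refl Bool)).trans
      (Equiv.curry (Fin k) (Fin 3) Bool)) _ _ fun J => ?_
    rw [← h.val_eq (L := Fin k × Fin 2) finProdFinEquiv _ _ (siteW_eq h0 h1 T k J)]
    exact (FinLaw.E_const _ _).symm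
  unfold Dis.P Dis.cav Tr.P
  simp only [hs, he, mul_neg, tsum_neg]
  norm_num
  ring

theorem vR_pow {N : ℕ} (c : Fin 3 → Lit N) (σ : Fin N → Bool) :
    (1 - κ) ^ vR c σ = 1 - κ * ∏ l, if σ (c l).1 = !(c l).2 then 1 else 0 := by
  unfold vR
  split_ifs with h
  · obtain ⟨i, hi⟩ := h
    rw [Finset.prod_eq_zero (mem_univ i) (by simp [hi])]
    simp
  · rw [Finset.prod_eq_one fun l _ => if_pos ?_]
    · simp
    · have : σ (c l).1 ≠ (c l).2 := fun e => h ⟨l, e⟩
      exact Bool.eq_not.2 this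

/-- The two pressures agree. -/
theorem pressure_eq (a : ℝ) (N : ℕ) : (sat3 κ h0 h1).dis.pressure a N = press a κ N := by
  unfold Dis.pressure press
  congr 1
  refine tsum_congr fun M => ?_
  congr 1
  rw [sat3_piE, lz, EL_eq_expect_ofFn]
  have e1 : ∀ J : Fin M → Fin 3 → Bool, ((FinLaw.pi fun _ : Fin N => (sat3 κ h0 h1).dis.πh).E
      fun hs => (Fintype.card (Fin M → Fin 3 → Fin N) : ℝ)⁻¹ * ∑ idx : Fin M → Fin 3 → Fin N,
        logPartition N (fun k => (sat3 κ h0 h1).dis.θ ((), J k)) idx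
          (fun i => (sat3 κ h0 h1).dis.h (hs i))) =
      𝔼 idx : Fin M → Fin 3 → Fin N, Real.log (∑ σ : Fin N → Bool,
        ∏ k, (1 - κ * ∏ l, if σ (idx k l) = J k l then 1 else 0)) := by
    intro J
    rw [Fintype.expect_eq_sum_div_card, div_eq_inv_mul]
    refine Eq.trans ?_ (FinLaw.E_const (FinLaw.pi fun _ : Fin N => (sat3 κ h0 h1).dis.πh) _)
    congr 1
    funext hs
    congr 1
    refine sum_congr rfl fun idx _ => ?_
    unfold logPartition
    congr 1
    refine sum_congr rfl fun σ _ => ?_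
    have : ∀ i, (sat3 κ h0 h1).dis.h (hs i) = 0 := fun i => rfl
    simp only [this, zero_mul, sum_const_zero, add_zero, Real.exp_sum, sat3_exp]
  simp only [e1]
  rw [← Finset.expect_product', Finset.univ_product_univ]
  refine Fintype.expect_equiv
    { toFun := fun x k l => (x.2 k l, !x.1 k l)
      invFun := fun F => (fun k l => !(F k l).2, fun k l => (F k l).1)
      left_inv := fun x => by simp
      right_inv := fun F => by simp } _ _ fun x => ?_
  congr 1
  refine sum_congr rfl fun σ _ => ?_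
  simp only [en, List.map_ofFn, List.sum_ofFn, Function.comp_def, ← Finset.prod_pow_eq_pow_sum,
    vR_pow, Equiv.coe_fn_mk, Bool.not_not]

end Crest.Agent.R153
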